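import Mathlib

/-!
Valuations of the lines of a periodic orbit for a support function of degree two.
-/

noncomputable section

namespace Vale.Agent.P097.Two

theorem exists_place {F : Type*} [Field F] (ι : ℂ →+* F) {z : F} (hz : ∀ c, ι c ≠ z) :
    ∃ V : ValuationSubring F, (∀ c, ι c ∈ V) ∧ z ∉ V := by
  have hz0 : z ≠ 0 := fun h => hz 0 (by rw [map_zero, h])
  set A : Subring F := (Polynomial.eval₂RingHom ι z⁻¹).range with hA
  have hy : z⁻¹ ∈ A := ⟨Polynomial.X, by simp⟩
  have hI : (Ideal.span {(⟨z⁻¹, hy⟩ : A)} : Ideal A) ≠ ⊤ := by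
    rw [Ne, Ideal.span_singleton_eq_top]
    intro hu
    obtain ⟨⟨u, P, hP⟩, hu'⟩ := hu.exists_right_inv
    have hu2 : z⁻¹ * u = 1 := by simpa using congrArg Subtype.val hu'
    set Q : Polynomial ℂ := Polynomial.X * P - 1 with hQ
    have hQ0 : Q ≠ 0 := fun h => by
      have := congrArg (fun p => Polynomial.coeff p 0) h
      simp [hQ] at this
    have hev : (Q.map ι).IsRoot z⁻¹ := by
      rw [Polynomial.IsRoot, Polynomial.eval_map, hQ, Polynomial.eval₂_sub, Polynomial.eval₂_mul,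
        Polynomial.eval₂_X, Polynomial.eval₂_one,
        show Polynomial.eval₂ ι z⁻¹ P = u from hP, hu2, sub_self]
    have hmem : z⁻¹ ∈ (Q.map ι).roots :=
      (Polynomial.mem_roots (Polynomial.map_ne_zero hQ0)).2 hev
    rw [(IsAlgClosed.splits Q).roots_map] at hmem
    obtain ⟨c, -, hc⟩ := Multiset.mem_map.1 hmem
    exact hz c⁻¹ (by rw [map_inv₀, hc, inv_inv])
  obtain ⟨V, hle, hnon⟩ := Ideal.image_subset_nonunits_valuationSubring _ hI
  refine ⟨V, fun c => hle ⟨Polynomial.C c, by simp⟩, fun hzV => ?_⟩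
  have h1 : z⁻¹ ∈ V.nonunits := hnon ⟨⟨z⁻¹, hy⟩, Ideal.mem_span_singleton_self _, rfl⟩
  rw [ValuationSubring.mem_nonunits_iff, map_inv₀] at h1
  have h2 := (V.valuation_le_one_iff z).2 hzV
  exact absurd h2 (not_le.2 ((inv_lt_one₀ (zero_lt_iff.2 (by simpa using hz0))).1 h1))

section Estimates

variable {F : Type*} [Field F] {G : Type*} [LinearOrderedCommGroupWithZero G]

theorem group_facts {M L R : G} (hM : 1 < M) (hL : M⁻¹ ≤ L) (hR : M⁻¹ ≤ R)
    (hne : ¬ (L = M⁻¹ ∧ R = M⁻¹)) :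
    1 < M * M * (L * R) ∧ 1 < M * M * M * M * (L * L * L * R) ∧
      1 < M * M * M * M * (L * R * R * R) ∧ 1 < M * M * M * M * (L * R * L * R) ∧ 1 ≤ M * L ∧ 1 ≤ M * R := by
  have hM0 : 0 < M := zero_lt_one.trans hM
  have a1 : 1 ≤ M * L := by
    calc (1 : G) = M * M⁻¹ := (mul_inv_cancel₀ hM0.ne').symm
      _ ≤ M * L := mul_le_mul_of_nonneg_left hL hM0.le
  have b1 : 1 ≤ M * R := by
    calc (1 : G) = M * M⁻¹ := (mul_inv_cancel₀ hM0.ne').symm
      _ ≤ M * R := mul_le_mul_of_nonneg_left hR hM0.le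
  have hab : 1 < (M * L) * (M * R) := by
    refine (one_le_mul a1 b1).lt_of_ne fun h => hne ?_
    have ha : M * L = 1 := le_antisymm (h ▸ le_mul_of_one_le_right zero_le' b1) a1
    rw [ha, one_mul] at h
    exact ⟨eq_inv_of_mul_eq_one_right ha, eq_inv_of_mul_eq_one_right h.symm⟩
  refine ⟨?_, ?_, ?_, ?_, a1, b1⟩
  · convert hab using 1; ac_rfl
  · have : 1 < (M * L) * (M * L) * ((M * L) * (M * R)) := hab.trans_le (le_mul_of_one_le_left zero_le' (one_le_mul a1 a1))
    convert this using 1; ac_rfl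
  · have : 1 < (M * R) * (M * R) * ((M * L) * (M * R)) := hab.trans_le (le_mul_of_one_le_left zero_le' (one_le_mul b1 b1))
    convert this using 1; ac_rfl
  · have : 1 < (M * L) * (M * R) * ((M * L) * (M * R)) := hab.trans_le (le_mul_of_one_le_left zero_le' (one_le_mul a1 b1))
    convert this using 1; ac_rfl

/-- The leading equation at a vertex of largest valuation. -/
theorem max_vertex (v : Valuation F G) {c d x l r : F} {M : G} (hc : v c = 1) (hd : v d = 1)
    (h3 : v 3 = 1) (hM : 1 < M) (hx : v x = M) (hl : M⁻¹ ≤ v l) (hr : M⁻¹ ≤ v r)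
    (heq : c * x ^ 4 * l ^ 3 * r ^ 3 * (3 * x ^ 2 - (r ^ 2 + r * l + l ^ 2)) +
      x ^ 2 * l ^ 2 * r ^ 2 * (l * r - x ^ 2) +
      d * (-3 * l ^ 2 * r ^ 2 + x ^ 2 * (r ^ 2 + r * l + l ^ 2)) = 0)
    (hne : ¬ (v l = M⁻¹ ∧ v r = M⁻¹)) :
    v (3 * x ^ 2 - (r ^ 2 + r * l + l ^ 2)) < M * M := by
  obtain ⟨f1, f2, f3, f4, a1, b1⟩ := group_facts hM hl hr hne
  set L := v l
  set R := v r
  have hM0 : 0 < M := zero_lt_one.trans hM
  have hinv : 0 < M⁻¹ := inv_pos.2 hM0
  have hL0 : 0 < L := hinv.trans_le hl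
  have hR0 : 0 < R := hinv.trans_le hr
  set T := M * M * M * M * M * M * (L * L * L) * (R * R * R) with hT
  have hT0 : 0 < T := by positivity
  have small : ∀ {y : G}, 0 < y → ∀ {f : G}, 1 < f → y * f = T → y < T := fun {y} hy {f} hf e => by
    rw [← e]; exact lt_mul_of_one_lt_right hy hf
  have u1 : M * M * M * M * (L * L) * (R * R) < T := small (by positivity) f1 (by rw [hT]; ac_rfl)
  have u2 : M * M * (L * L * L) * (R * R * R) < T :=
    small (by positivity) (f := M * M * M * M) (hM.trans_le (le_mul_of_one_le_left zero_le' (one_le_mul (one_le_mul hM.le hM.le) hM.le)))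
      (by rw [hT]; ac_rfl)
  have u3 : L * L * (R * R) < T :=
    small (by positivity) (f := M * M * M * M * (M * M * (L * R)))
      (f1.trans_le (le_mul_of_one_le_left zero_le' (one_le_mul (one_le_mul (one_le_mul hM.le hM.le) hM.le) hM.le))) (by rw [hT]; ac_rfl)
  have u4 : M * M * (R * R) < T := small (by positivity) f2 (by rw [hT]; ac_rfl)
  have u5 : M * M * (R * L) < T := small (by positivity) f4 (by rw [hT]; ac_rfl)
  have u6 : M * M * (L * L) < T := small (by positivity) f3 (by rw [hT]; ac_rfl)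
  have rest : v (x ^ 2 * l ^ 2 * r ^ 2 * (l * r - x ^ 2) +
      d * (-3 * l ^ 2 * r ^ 2 + x ^ 2 * (r ^ 2 + r * l + l ^ 2))) < T := by
    have e : x ^ 2 * l ^ 2 * r ^ 2 * (l * r - x ^ 2) +
        d * (-3 * l ^ 2 * r ^ 2 + x ^ 2 * (r ^ 2 + r * l + l ^ 2)) =
        x ^ 2 * l ^ 3 * r ^ 3 + -(x ^ 4 * l ^ 2 * r ^ 2) + -(d * 3 * l ^ 2 * r ^ 2) +
          d * x ^ 2 * r ^ 2 + d * x ^ 2 * (r * l) + d * x ^ 2 * l ^ 2 := by ring
    rw [e]
    refine v.map_add_lt (v.map_add_lt (v.map_add_lt (v.map_add_lt (v.map_add_lt ?_ ?_) ?_) ?_) ?_) ?_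
    · simpa [map_mul, map_pow, hx, pow_succ, mul_assoc] using u2
    · simpa [map_mul, map_pow, hx, pow_succ, mul_assoc] using u1
    · simpa [map_mul, map_pow, hx, hd, h3, pow_succ, mul_assoc] using u3
    · simpa [map_mul, map_pow, hx, hd, pow_succ, mul_assoc] using u4
    · simpa [map_mul, map_pow, hx, hd, pow_succ, mul_assoc] using u5
    · simpa [map_mul, map_pow, hx, hd, pow_succ, mul_assoc] using u6
  have e2 : c * x ^ 4 * l ^ 3 * r ^ 3 * (3 * x ^ 2 - (r ^ 2 + r * l + l ^ 2)) =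
      -(x ^ 2 * l ^ 2 * r ^ 2 * (l * r - x ^ 2) +
        d * (-3 * l ^ 2 * r ^ 2 + x ^ 2 * (r ^ 2 + r * l + l ^ 2))) := by linear_combination heq
  have h4 : v (c * x ^ 4 * l ^ 3 * r ^ 3 * (3 * x ^ 2 - (r ^ 2 + r * l + l ^ 2))) < T := by
    rw [e2, Valuation.map_neg]; exact rest
  by_contra hcon
  refine absurd h4 (not_lt.2 ?_)
  rw [map_mul, map_mul, map_mul, map_mul, map_pow, map_pow, map_pow, hc, hx, one_mul, hT]
  refine le_trans (le_of_eq ?_) (mul_le_mul_of_nonneg_left (not_lt.1 hcon) zero_le')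
  simp only [pow_succ, pow_zero, one_mul]
  ac_rfl

end Estimates

variable {F : Type*} [Field F]

theorem valuation_const (V : ValuationSubring F) (ι : ℂ →+* F) (hι : ∀ c, ι c ∈ V) {c : ℂ} (hc : c ≠ 0) :
    V.valuation (ι c) = 1 := by
  refine le_antisymm ((V.valuation_le_one_iff _).2 (hι c)) ?_
  have h := (V.valuation_le_one_iff _).2 (hι c⁻¹)
  rw [map_inv₀, map_inv₀] at h
  exact (inv_le_one₀ (zero_lt_iff.2 (by simpa using hc))).1 h

/-- The orbit equation at the vertex `x` with neighbours `l`, `r`. -/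
def Balanced (c d x l r : F) : Prop :=
  c * x ^ 4 * l ^ 3 * r ^ 3 * (3 * x ^ 2 - (r ^ 2 + r * l + l ^ 2)) +
    x ^ 2 * l ^ 2 * r ^ 2 * (l * r - x ^ 2) +
    d * (-3 * l ^ 2 * r ^ 2 + x ^ 2 * (r ^ 2 + r * l + l ^ 2)) = 0

theorem Balanced.inv {c d x l r : F} (hx : x ≠ 0) (hl : l ≠ 0) (hr : r ≠ 0) (h : Balanced c d x l r) :
    Balanced d c x⁻¹ l⁻¹ r⁻¹ := by
  unfold Balanced at *
  field_simp
  linear_combination -h

/-- No block of two consecutive vertices of largest valuation has a left end. -/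
theorem no_block (V : ValuationSubring F) (ι : ℂ →+* F) (hι : ∀ c, ι c ∈ V) {c d : ℂ} (hc : c ≠ 0)
    (hd : d ≠ 0) {w : ℕ → F} {q : ℕ} (hq : 0 < q) (hper : ∀ i, V.valuation (w (i + q)) = V.valuation (w i))
    (heq : ∀ i, Balanced (ι c) (ι d) (w (i + 1)) (w i) (w (i + 2))) {M : V.ValueGroup}
    (hM : 1 < M) (hup : ∀ i, V.valuation (w i) ≤ M) (hlo : ∀ i, M⁻¹ ≤ V.valuation (w i)) {i : ℕ}
    (h0 : V.valuation (w i) < M) (h1 : V.valuation (w (i + 1)) = M) :
    V.valuation (w (i + 2)) < M := by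
  refine (hup _).lt_of_ne fun h2 => ?_
  set v := V.valuation with hv
  set res := IsLocalRing.residue V with hres
  let ψ : ℂ →+* IsLocalRing.ResidueField V := res.comp (ι.codRestrict V.toSubring hι)
  have hψ : Function.Injective ψ := ψ.injective
  have h3 : v (3 : F) = 1 := by
    rw [← map_ofNat ι 3]; exact valuation_const V ι hι (by norm_num)
  have hMne : M ≠ 0 := (zero_lt_one.trans hM).ne'
  have hMinv : M⁻¹ < M := (inv_lt_one_of_one_lt₀ hM).trans hM
  have hne : ∀ j, v (w j) = M → w j ≠ 0 := fun j hj h => hMne (by rw [← hj, h, map_zero])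
  have resZero : ∀ (u : V), v (u : F) < 1 → res u = 0 := fun u hu => by
    rw [hres, IsLocalRing.residue_eq_zero_iff]; exact (V.valuation_lt_one_iff u).2 hu
  have unit : ∀ a b : ℕ, v (w a) = M → v (w b) = M → w a / w b ∈ V := fun a b ha hb => by
    rw [← V.valuation_le_one_iff, ← hv, map_div₀, ha, hb, div_self hMne]
  have P : ∀ k : ℕ, v (w (i + 1 + k)) = M ∧ v (w (i + 1 + k + 1)) = M ∧
      ∃ (u : V) (r : ℝ), (u : F) = w (i + 1 + k + 1) / w (i + 1 + k) ∧ res u = ψ (r : ℂ) ∧ 1 < r ^ 2 := by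
    intro k
    induction k with
    | zero =>
      refine ⟨h1, h2, ⟨_, unit _ _ h2 h1⟩, ?_⟩
      set x := w (i + 1)
      have hb := max_vertex v (valuation_const V ι hι hc) (valuation_const V ι hι hd) h3 hM h1 (hlo i)
        (hlo (i + 2)) (heq i) (fun h => hMinv.ne (h2 ▸ h.2).symm)
      have hu : v (3 - (w (i + 2) / x) ^ 2) < 1 := by
        have e : 3 - (w (i + 2) / x) ^ 2 = (3 * x ^ 2 - (w (i + 2) ^ 2 + w (i + 2) * w i + w i ^ 2)) / x ^ 2
            + (w (i + 2) / x * (w i / x) + (w i / x) ^ 2) := by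
          have hx0 : x ≠ 0 := hne _ h1
          field_simp; ring
        rw [e]
        have hlt : v (w i / x) < 1 := by
          rw [map_div₀, h1]; exact (div_lt_one₀ (zero_lt_one.trans hM)).2 h0
        refine v.map_add_lt ?_ (v.map_add_lt ?_ ?_)
        · rw [map_div₀, map_pow, h1, sq M]
          exact (div_lt_one₀ (mul_pos (zero_lt_one.trans hM) (zero_lt_one.trans hM))).2 hb
        · rw [map_mul, map_div₀ v (w (i + 2)), h1, h2, div_self hMne, one_mul]; exact hlt
        · rw [map_pow]; exact pow_lt_one₀ zero_le' hlt two_ne_zero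
      have hz := resZero (3 - (⟨_, unit _ _ h2 h1⟩ : V) ^ 2) hu
      rw [map_sub, map_pow, map_ofNat] at hz
      have hs : ((Real.sqrt 3 : ℝ) : ℂ) ^ 2 = 3 := by
        rw [← Complex.ofReal_pow, Real.sq_sqrt (by norm_num)]; norm_num
      have hp : ψ ((Real.sqrt 3 : ℝ) : ℂ) ^ 2 = 3 := by rw [← map_pow, hs, map_ofNat]
      rcases sq_eq_sq_iff_eq_or_eq_neg.1 ((sub_eq_zero.1 hz).symm.trans hp.symm) with e | e
      · exact ⟨Real.sqrt 3, rfl, e, by rw [Real.sq_sqrt (by norm_num)]; norm_num⟩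
      · refine ⟨-Real.sqrt 3, rfl, ?_, by rw [neg_sq, Real.sq_sqrt (by norm_num)]; norm_num⟩
        rw [e]; push_cast; rw [map_neg]
    | succ k ih =>
      obtain ⟨hA, hB, u, r, hu, hur, hr⟩ := ih
      set l := w (i + 1 + k) with hl
      set x := w (i + 1 + k + 1) with hx
      set y := w (i + 1 + (k + 1) + 1) with hy
      have hx0 : x ≠ 0 := hne _ hB
      have hr0 : r ≠ 0 := fun h => by rw [h] at hr; norm_num at hr
      have hbV : l / x ∈ V := unit _ _ hA hB
      have hbeta : res ⟨l / x, hbV⟩ = ψ ((r⁻¹ : ℝ) : ℂ) := by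
        have e : u * ⟨l / x, hbV⟩ = 1 := Subtype.ext (by
          show (u : F) * (l / x) = 1
          rw [hu]; field_simp; exact div_self (hne _ hA))
        have h5 : ψ (r : ℂ) * res ⟨l / x, hbV⟩ = 1 := by rw [← hur, ← map_mul, e, map_one]
        rw [Complex.ofReal_inv, map_inv₀]
        exact eq_inv_of_mul_eq_one_right h5
      have hr1 : (r⁻¹) ^ 2 < 1 := by rw [inv_pow]; exact inv_lt_one_of_one_lt₀ hr
      have hb := max_vertex v (valuation_const V ι hι hc) (valuation_const V ι hι hd) h3 hM hB (hlo _)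
        (hlo _) (heq (i + 1 + k)) (fun h => hMinv.ne (hA ▸ h.1).symm)
      change v (3 * x ^ 2 - (y ^ 2 + y * l + l ^ 2)) < M * M at hb
      have hquot : v ((3 * x ^ 2 - (y ^ 2 + y * l + l ^ 2)) / x ^ 2) < 1 := by
        rw [map_div₀, map_pow, hB, sq M]
        exact (div_lt_one₀ (mul_pos (zero_lt_one.trans hM) (zero_lt_one.trans hM))).2 hb
      have hlx : v (l / x) = 1 := by rw [map_div₀, hA, hB, div_self hMne]
      have hnext : v y = M := by
        refine (hup _).antisymm (not_lt.1 fun hlt => ?_)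
        have hy1 : v (y / x) < 1 := by
          rw [map_div₀, hB]; exact (div_lt_one₀ (zero_lt_one.trans hM)).2 hlt
        have hu' : v (3 - (l / x) ^ 2) < 1 := by
          have e : 3 - (l / x) ^ 2 =
              (3 * x ^ 2 - (y ^ 2 + y * l + l ^ 2)) / x ^ 2 + ((y / x) ^ 2 + y / x * (l / x)) := by
            field_simp [hx0]; ring
          rw [e]
          refine v.map_add_lt hquot (v.map_add_lt ?_ ?_)
          · rw [map_pow]; exact pow_lt_one₀ zero_le' hy1 two_ne_zero
          · rw [map_mul, hlx, mul_one]; exact hy1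
        have hz := resZero (3 - (⟨l / x, hbV⟩ : V) ^ 2) hu'
        rw [map_sub, map_pow, map_ofNat, hbeta, ← map_pow, ← map_ofNat ψ 3, ← map_sub,
          map_eq_zero] at hz
        have h5 : (r⁻¹ : ℝ) ^ 2 = 3 := by
          have h6 : ((r⁻¹ : ℝ) : ℂ) ^ 2 = 3 := (sub_eq_zero.1 hz).symm
          exact_mod_cast h6
        linarith
      have hyV : y / x ∈ V := unit _ _ hnext hB
      refine ⟨hB, hnext, ⟨y / x, hyV⟩, ?_⟩
      have hu' : v (3 - ((y / x) ^ 2 + y / x * (l / x) + (l / x) ^ 2)) < 1 := by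
        have e : 3 - ((y / x) ^ 2 + y / x * (l / x) + (l / x) ^ 2) =
            (3 * x ^ 2 - (y ^ 2 + y * l + l ^ 2)) / x ^ 2 := by field_simp [hx0]
        rw [e]; exact hquot
      have hz := resZero (3 - ((⟨y / x, hyV⟩ : V) ^ 2 + ⟨y / x, hyV⟩ * ⟨l / x, hbV⟩ + ⟨l / x, hbV⟩ ^ 2)) hu'
      rw [map_sub, map_add, map_add, map_mul, map_pow, map_pow, map_ofNat, hbeta] at hz
      set al := res ⟨y / x, hyV⟩
      set s := r⁻¹ with hs
      have hD : 0 ≤ 12 - 3 * s ^ 2 := by nlinarith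
      set D := Real.sqrt (12 - 3 * s ^ 2)
      have hDsq : D ^ 2 = 12 - 3 * s ^ 2 := Real.sq_sqrt hD
      set r1 : ℝ := (-s + D) / 2
      set r2 : ℝ := (-s - D) / 2
      have hsum : ψ (r1 : ℂ) + ψ (r2 : ℂ) = -ψ (s : ℂ) := by
        rw [← map_add, ← map_neg, ← Complex.ofReal_add, ← Complex.ofReal_neg]; congr 2; ring
      have hprod : ψ (r1 : ℂ) * ψ (r2 : ℂ) = ψ (s : ℂ) ^ 2 - 3 := by
        rw [← map_mul, ← Complex.ofReal_mul, show r1 * r2 = s ^ 2 - 3 by
          simp only [r1, r2]; linear_combination (-1 / 4 : ℝ) * hDsq]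
        push_cast; rw [map_sub, map_pow, map_ofNat]
      have hfac : (al - ψ (r1 : ℂ)) * (al - ψ (r2 : ℂ)) = 0 := by
        linear_combination -hz - al * hsum + hprod
      have habs : ∀ t : ℝ, t ^ 2 + t * s + s ^ 2 = 3 → 1 < t ^ 2 := fun t ht => by
        nlinarith [sq_nonneg (t - s)]
      rcases mul_eq_zero.1 hfac with e | e
      · exact ⟨r1, rfl, sub_eq_zero.1 e, habs r1 (by simp only [r1]; linear_combination (1 / 4 : ℝ) * hDsq)⟩
      · exact ⟨r2, rfl, sub_eq_zero.1 e, habs r2 (by simp only [r2]; linear_combination (1 / 4 : ℝ) * hDsq)⟩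
  obtain ⟨hA, -⟩ := P (q - 1)
  rw [show i + 1 + (q - 1) = i + q by omega, hper i] at hA
  exact h0.ne hA

/-- A periodic cycle of odd length has all valuations equal. -/
theorem valuation_eq (V : ValuationSubring F) (ι : ℂ →+* F) (hι : ∀ c, ι c ∈ V) {c d : ℂ} (hc : c ≠ 0)
    (hd : d ≠ 0) {w : ℕ → F} {q : ℕ} (hq : Odd q) (hw : ∀ i, w i ≠ 0)
    (hper : ∀ i, w (i + q) = -w i)
    (heq : ∀ i, Balanced (ι c) (ι d) (w (i + 1)) (w i) (w (i + 2))) (i : ℕ) :
    V.valuation (w (i + 1)) = V.valuation (w i) := by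
  have hqpos : 0 < q := hq.pos
  set v := V.valuation with hv
  by_contra hcon
  have hperv : ∀ j, v (w (j + q)) = v (w j) := fun j => by rw [hper, Valuation.map_neg]
  have hmod : ∀ j, v (w j) = v (w (j % q)) := fun j => ((show Function.Periodic (fun j => v (w j)) q from hperv).map_mod_nat j).symm
  set g : ℕ → V.ValueGroup := fun j => max (v (w j)) (v (w j))⁻¹ with hg
  obtain ⟨jm, hjm, hmax⟩ := Finset.exists_max_image (Finset.range q) g ⟨0, Finset.mem_range.2 hqpos⟩
  set M := g jm with hMdef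
  have hpos : ∀ j, 0 < v (w j) := fun j => zero_lt_iff.2 (by simpa using hw j)
  have hb : ∀ j, v (w j) ≤ M ∧ (v (w j))⁻¹ ≤ M := fun j => by
    have := hmax (j % q) (Finset.mem_range.2 (Nat.mod_lt j hqpos))
    simp only [hg, ← hmod j] at this
    exact ⟨(le_max_left _ _).trans this, (le_max_right _ _).trans this⟩
  have hM : 1 < M := by
    by_contra h
    have one : ∀ j, v (w j) = 1 := fun j => le_antisymm ((hb j).1.trans (not_lt.1 h))
      ((inv_le_one₀ (hpos j)).1 ((hb j).2.trans (not_lt.1 h)))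
    exact hcon (by rw [one, one])
  have hMinv : M⁻¹ < M := (inv_lt_one_of_one_lt₀ hM).trans hM
  -- isolated vertices of largest valuation
  have iso : ∀ (c' d' : ℂ), c' ≠ 0 → d' ≠ 0 → ∀ u : ℕ → F,
      (∀ j, v (u (j + q)) = v (u j)) → (∀ j, v (u j) ≤ M) → (∀ j, M⁻¹ ≤ v (u j)) →
      (∀ j, Balanced (ι c') (ι d') (u (j + 1)) (u j) (u (j + 2))) →
      (∃ j, v (u j) ≠ M) → ∀ j, v (u j) = M → v (u (j + 1)) = M⁻¹ := by
    intro c' d' hc' hd' u hpu hup hlo heq' hnot j hj
    have hmodu : ∀ n, v (u n) = v (u (n % q)) := fun n => ((show Function.Periodic (fun j => v (u j)) q from hpu).map_mod_nat n).symm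
    have hblock : ∀ n, v (u n) = M → v (u (n + 1)) = M → False := by
      intro n h1 h2
      have back : ∀ k, v (u (n + k * (q - 1))) = M ∧ v (u (n + k * (q - 1) + 1)) = M := by
        intro k
        induction k with
        | zero => simpa using ⟨h1, h2⟩
        | succ k ih =>
          obtain ⟨i1, i2⟩ := ih
          have e1 : n + (k + 1) * (q - 1) + 1 = n + k * (q - 1) + q := by
            rw [Nat.succ_mul]; omega
          have e2 : v (u (n + (k + 1) * (q - 1) + 1)) = M := by rw [e1, hpu]; exact i1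
          refine ⟨?_, e2⟩
          by_contra hne
          have := no_block V ι hι hc' hd' hqpos hpu heq' hM hup hlo ((hup _).lt_of_ne hne) e2
          rw [show n + (k + 1) * (q - 1) + 2 = n + k * (q - 1) + 1 + q by omega, hpu, i2] at this
          exact lt_irrefl _ this
      obtain ⟨m, hm⟩ := hnot
      obtain ⟨k, hk⟩ : ∃ k, (n + k * (q - 1)) % q = m % q := by
        rcases Nat.lt_or_ge q 2 with hq2 | hq2
        · exact ⟨0, by rw [show q = 1 by omega]; omega⟩
        refine ⟨n + (q - 1) * m, ?_⟩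
        have e : n + (n + (q - 1) * m) * (q - 1) = m + q * (n + (q - 2) * m) := by
          obtain ⟨p, rfl⟩ : ∃ p, q = p + 1 := ⟨q - 1, by omega⟩
          rcases p with _ | p
          · omega
          · simp only [Nat.add_sub_cancel, show p + 1 + 1 - 2 = p from by omega]; ring
        rw [e, Nat.add_mul_mod_self_left]
      exact hm (by rw [hmodu m, ← hk, ← hmodu]; exact (back k).1)
    have hprev : v (u (j + (q - 1))) ≠ M := fun h => hblock (j + (q - 1)) h (by
      rw [show j + (q - 1) + 1 = j + q by omega, hpu]; exact hj)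
    have hnext : v (u (j + 1)) ≠ M := fun h => hblock j hj h
    by_contra hne
    have hx : v (u (j + (q - 1) + 1)) = M := by
      rw [show j + (q - 1) + 1 = j + q by omega, hpu]; exact hj
    have hy : u (j + (q - 1) + 2) = u (j + 1 + q) := by congr 1; omega
    have hb' := max_vertex v (valuation_const V ι hι hc') (valuation_const V ι hι hd')
      (by rw [← map_ofNat ι 3]; exact valuation_const V ι hι (by norm_num)) hM hx (hlo _) (hlo _)
      (heq' (j + (q - 1))) (fun h => hne (by rw [← hpu (j + 1), ← hy]; exact h.2))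
    set x := u (j + (q - 1) + 1)
    set l := u (j + (q - 1))
    set y := u (j + (q - 1) + 2)
    have hl : v l < M := (hup _).lt_of_ne hprev
    have hr : v y < M := by rw [hy, hpu]; exact (hup _).lt_of_ne hnext
    have hlt : v (y ^ 2 + y * l + l ^ 2) < v (3 * x ^ 2) := by
      have e : v (3 * x ^ 2) = M * M := by
        rw [map_mul, map_pow, hx, ← map_ofNat ι 3, hv, valuation_const V ι hι (by norm_num), one_mul,
          pow_two]
      rw [e]
      refine v.map_add_lt (v.map_add_lt ?_ ?_) ?_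
      · rw [map_pow, pow_two]; exact mul_lt_mul'' hr hr zero_le' zero_le'
      · rw [map_mul]; exact mul_lt_mul'' hr hl zero_le' zero_le'
      · rw [map_pow, pow_two]; exact mul_lt_mul'' hl hl zero_le' zero_le'
    rw [v.map_sub_eq_of_lt_left hlt, map_mul, map_pow, hx, ← map_ofNat ι 3, hv,
      valuation_const V ι hι (by norm_num), one_mul, pow_two] at hb'
    exact lt_irrefl _ hb'
  have hlo : ∀ j, M⁻¹ ≤ v (w j) := fun j => by
    rw [inv_le_comm₀ (zero_lt_one.trans hM) (hpos j)]; exact (hb j).2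
  set w' : ℕ → F := fun j => (w j)⁻¹
  have hv' : ∀ j, v (w' j) = (v (w j))⁻¹ := fun j => map_inv₀ v _
  have notall : ∀ z : V.ValueGroup, ∃ j, v (w j) ≠ z := fun z => by
    by_contra h
    have h' : ∀ j, v (w j) = z := fun j => not_not.1 fun hj => h ⟨j, hj⟩
    exact hcon (by rw [h', h'])
  have a1 := iso c d hc hd w hperv (fun j => (hb j).1) hlo heq (notall M)
  have a2 : ∀ j, v (w j) = M⁻¹ → v (w (j + 1)) = M := by
    intro j hj
    have hperv' : ∀ n, v (w' (n + q)) = v (w' n) := fun n => by rw [hv', hv', hperv]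
    have := iso d c hd hc w' hperv' (fun n => by rw [hv']; exact (hb n).2)
      (fun n => by rw [hv']; exact inv_anti₀ (hpos n) (hb n).1)
      (fun n => (heq n).inv (hw _) (hw _) (hw _))
      (by obtain ⟨n, hn⟩ := notall M⁻¹; exact ⟨n, fun h => hn (by rw [hv'] at h; rw [← h, inv_inv])⟩)
      j (by rw [hv', hj, inv_inv])
    rw [hv'] at this
    exact inv_injective this
  have alt : ∀ j, v (w j) = M → ∀ k, v (w (j + 2 * k)) = M ∧ v (w (j + 2 * k + 1)) = M⁻¹ := by
    intro j hj k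
    induction k with
    | zero => exact ⟨hj, a1 j hj⟩
    | succ k ih =>
      have h1 := a2 _ ih.2
      rw [show j + 2 * k + 1 + 1 = j + 2 * (k + 1) by ring] at h1
      exact ⟨h1, a1 _ h1⟩
  obtain ⟨j, hj⟩ : ∃ j, v (w j) = M := by
    rcases max_choice (v (w jm)) (v (w jm))⁻¹ with e | e
    · exact ⟨jm, e.symm⟩
    · refine ⟨jm + 1, a2 jm ?_⟩
      rw [← inv_inv (v (w jm)), ← e]
  obtain ⟨k, hk⟩ := hq
  have := (alt j hj k).2
  rw [show j + 2 * k + 1 = j + q by omega, hperv, hj] at this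
  exact hMinv.ne this.symm

/-- An odd periodic cycle with generic first line does not exist. -/
theorem no_cycle (ι : ℂ →+* F) {c d : ℂ} (hc : c ≠ 0) (hd : d ≠ 0) {w : ℕ → F} {q : ℕ} (hq : Odd q)
    (hw : ∀ i, w i ≠ 0) (hper : ∀ i, w (i + q) = -w i)
    (heq : ∀ i, Balanced (ι c) (ι d) (w (i + 1)) (w i) (w (i + 2)))
    (hdist : ∀ i, w (i + 2) ≠ w i) (hgen : ∀ k, ι k ≠ w 0) : False := by
  by_cases h : ∀ i, ∃ k, ι k = w (i + 1) / w i
  · choose k hk using h
    have hK : ∀ i, w i = ι (∏ j ∈ Finset.range i, k j) * w 0 := by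
      intro i
      induction i with
      | zero => simp
      | succ n ih =>
        rw [Finset.prod_range_succ, map_mul, mul_right_comm, ← ih, hk n, mul_comm,
          div_mul_cancel₀ _ (hw n)]
    set K : ℕ → ℂ := fun i => ∏ j ∈ Finset.range i, k j
    have hroot : ∀ i, K (i + 1) ≠ 0 := fun i h => hw (i + 1) (by rw [hK, show (∏ j ∈ Finset.range (i + 1), k j) = 0 from h, map_zero, zero_mul])
    have e := heq 0
    unfold Balanced at e
    rw [hK 1, hK 2] at e
    set z := w 0 with hz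
    set x := K 1
    set r := K 2
    set A := c * x ^ 4 * r ^ 3 * (3 * x ^ 2 - (r ^ 2 + r + 1))
    set B := x ^ 2 * r ^ 2 * (r - x ^ 2)
    set C := d * (-3 * r ^ 2 + x ^ 2 * (r ^ 2 + r + 1))
    set P : Polynomial ℂ := Polynomial.C A * Polynomial.X ^ 12 + Polynomial.C B * Polynomial.X ^ 8
      + Polynomial.C C * Polynomial.X ^ 4
    have hev : Polynomial.eval₂ ι z P = 0 := by
      rw [← e]
      simp only [P, Polynomial.eval₂_add, Polynomial.eval₂_mul, Polynomial.eval₂_C,
        Polynomial.eval₂_pow, Polynomial.eval₂_X]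
      simp only [A, B, C, map_mul, map_add, map_sub, map_pow, map_neg, map_ofNat, map_one, x, r, K]
      ring
    have hP : P = 0 := by
      by_contra hne
      have hmem : z ∈ (P.map ι).roots :=
        (Polynomial.mem_roots (Polynomial.map_ne_zero hne)).2
          (by rw [Polynomial.IsRoot, Polynomial.eval_map]; exact hev)
      rw [(IsAlgClosed.splits P).roots_map] at hmem
      obtain ⟨a, -, ha⟩ := Multiset.mem_map.1 hmem
      exact hgen a ha
    have hA : A = 0 := by
      have := congrArg (fun p => Polynomial.coeff p 12) hP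
      simpa [P] using this
    have hB : B = 0 := by
      have := congrArg (fun p => Polynomial.coeff p 8) hP
      simpa [P] using this
    have hx : x ≠ 0 := hroot 0
    have hr : r ≠ 0 := hroot 1
    have hB' : r = x ^ 2 := by simpa [B, hx, hr, sub_eq_zero] using hB
    have hA' : 3 * x ^ 2 - (r ^ 2 + r + 1) = 0 := by simpa [A, hc, hx, hr] using hA
    rw [← hB'] at hA'
    have : (r - 1) ^ 2 = 0 := by linear_combination -hA'
    have hr1 : r = 1 := sub_eq_zero.1 (pow_eq_zero_iff two_ne_zero |>.1 this)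
    exact hdist 0 (by rw [hK 2, show (∏ j ∈ Finset.range 2, k j) = 1 from hr1, map_one, one_mul])
  · push Not at h
    obtain ⟨i, hi⟩ := h
    obtain ⟨V, hι, hV⟩ := exists_place ι hi
    have := valuation_eq V ι hι hc hd hq hw hper heq i
    refine hV ((V.valuation_le_one_iff _).1 (le_of_eq ?_))
    rw [map_div₀, this, div_self (by simpa using hw i)]

end Vale.Agent.P097.Two
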