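import Vale.Agent.P097.Trig.Main
import Vale.Agent.P097.Two.Cycle

/-!
A table with support function of degree two that is integrable near the boundary is a disc.
-/

noncomputable section

namespace Vale.Agent.P097.Two

open Filter Topology Set Vale.Agent.P097.Sym Vale.Agent.P097.Trig

variable {rho : ℝ → ℝ} {eta : ℝ}

/-- Periodic orbits whose first line has the angle `1/(n+1)`. -/
theorem exists_orbits (h : IsTable rho) (hint : GraphIntegrable rho eta) {m : ℕ}
    (hk : Real.pi / (m + 1 : ℕ) < eta) :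
    ∃ th : ℕ → ℕ → ℝ, (∀ n : ℕ, th n 0 = 1 / ((n : ℝ) + 1)) ∧
      (∀ n i, th n (i + (m + 1)) = th n i + 2 * Real.pi) ∧ (∀ n, StrictMono (th n)) ∧
      ∀ n i, height rho (th n (i + 1)) ((th n i + th n (i + 1)) / 2)
        ((th n (i + 1) + th n (i + 2)) / 2) = 0 := by
  obtain ⟨G, h1, h2, h3, h4, h5⟩ := hint
  have L : Leaves rho eta G := ⟨h, h1, h2, h3, h4, h5⟩
  choose T hT eT using fun y => L.exists_leaf hk y
  have hTc := continuous_periodic_leaf L hT eT
  set g : ℝ → ℝ := fun a => line rho G (T a) a 0 with hg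
  have hge : ∀ a, g a = a + G (T a) a := fun a => rfl
  have hgc : Continuous g := by
    rw [show g = fun a => a + G (T a) a from funext hge]
    refine continuous_id.add (continuous_iff_continuousAt.2 fun a => ?_)
    exact ContinuousAt.comp (g := fun p : ℝ × ℝ => G p.1 p.2) (f := fun a => (T a, a))
      (L.cont.continuousAt ((isOpen_Ioo.prod isOpen_univ).mem_nhds ⟨hT a, mem_univ _⟩))
      (hTc.continuousAt.prodMk continuousAt_id)
  have hsol : ∀ n : ℕ, ∃ a, g a = 1 / ((n : ℝ) + 1) := fun n => by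
    set s : ℝ := 1 / ((n : ℝ) + 1)
    have a1 : g (s - Real.pi) < s := by
      rw [hge]; linarith [(L.range _ (hT (s - Real.pi)) (s - Real.pi)).1.2]
    have a2 : s < g s := by rw [hge]; linarith [(L.range _ (hT s) s).1.1]
    obtain ⟨a, -, ha⟩ := intermediate_value_Ioo (by linarith [Real.pi_pos]) hgc.continuousOn ⟨a1, a2⟩
    exact ⟨a, ha⟩
  choose a ha using hsol
  refine ⟨fun n i => line rho G (T (a n)) (a n) i, ha, fun n i => line_period L (hT _) (eT _) i,
    fun n => strictMono_nat_of_lt_succ fun i => ?_, fun n i => line_equation L (hT _) _ i⟩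
  have e := L.angle_next (hT (a n)) ((leafMap rho G (T (a n)))^[i] (a n))
  have p := (L.range _ (hT (a n)) (leafMap rho G (T (a n)) ((leafMap rho G (T (a n)))^[i] (a n)))).1.1
  simp only [line, Function.iterate_succ_apply']
  linarith

theorem balanced_of_eq {c d x l r : ℂ} (hx : x ≠ 0) (hl : l ≠ 0) (hr : r ≠ 0) (hrl : r ≠ l)
    (e : (l / x + x / l) - (r / x + x / r) + (c * x ^ 4 * ((r / x) ^ 3 - 3 * (r / x) - ((l / x) ^ 3 - 3 * (l / x))) +
      d * (x ^ 4)⁻¹ * ((x / r) ^ 3 - 3 * (x / r) - ((x / l) ^ 3 - 3 * (x / l)))) = 0) :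
    Balanced c d x l r := by
  have key : ((l / x + x / l) - (r / x + x / r) +
      (c * x ^ 4 * ((r / x) ^ 3 - 3 * (r / x) - ((l / x) ^ 3 - 3 * (l / x))) +
      d * (x ^ 4)⁻¹ * ((x / r) ^ 3 - 3 * (x / r) - ((x / l) ^ 3 - 3 * (x / l))))) * (x ^ 3 * l ^ 3 * r ^ 3) =
      -((r - l) * (c * x ^ 4 * l ^ 3 * r ^ 3 * (3 * x ^ 2 - (r ^ 2 + r * l + l ^ 2)) +
        x ^ 2 * l ^ 2 * r ^ 2 * (l * r - x ^ 2) +
        d * (-3 * l ^ 2 * r ^ 2 + x ^ 2 * (r ^ 2 + r * l + l ^ 2)))) := by
    field_simp; ring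
  rw [e, zero_mul, eq_comm, neg_eq_zero] at key
  exact (mul_eq_zero.1 key).resolve_left (sub_ne_zero.2 hrl)

/-- Half of the angle of a line, on the unit circle. -/
def half (t : ℝ) : ℂ := Complex.exp (((t / 2 : ℝ) : ℂ) * Complex.I)

theorem half_ne_zero (t : ℝ) : half t ≠ 0 := Complex.exp_ne_zero _

theorem half_ne {s t : ℝ} (h1 : s < t) (h2 : t < s + 2 * Real.pi) : half t ≠ half s := by
  intro e
  have e1 : half t = half s * Complex.exp ((((t - s) / 2 : ℝ) : ℂ) * Complex.I) := by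
    rw [half, half, ← Complex.exp_add]; push_cast; ring_nf
  rw [e, eq_comm, mul_eq_left₀ (half_ne_zero s)] at e1
  have := congrArg Complex.im e1
  rw [Complex.exp_ofReal_mul_I_im, Complex.one_im] at this
  exact (Real.sin_pos_of_pos_of_lt_pi (by linarith) (by linarith)).ne' this

theorem balanced_half {h : ℕ → ℂ} (hT : IsTable (rhoOf 2 h)) {tl tx tr : ℝ} (h1 : tl < tr)
    (h2 : tr < tl + 2 * Real.pi) (e : height (rhoOf 2 h) tx ((tl + tx) / 2) ((tx + tr) / 2) = 0) :
    Balanced (h 2) (starRingEnd ℂ (h 2)) (half tx) (half tl) (half tr) := by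
  have := equation_complex hT (s := tx) (b := 0) (p := 0) (pl := tl - tx) (pr := tr - tx)
    (by convert e using 2 <;> ring)
  have q1 : Complex.exp (((((tl - tx) / 2 : ℝ)) : ℂ) * Complex.I) = half tl / half tx := by
    rw [half, half, ← Complex.exp_sub]; push_cast; ring_nf
  have q2 : Complex.exp (((((-(tl - tx)) / 2 : ℝ)) : ℂ) * Complex.I) = half tx / half tl := by
    rw [half, half, ← Complex.exp_sub]; push_cast; ring_nf
  have q3 : Complex.exp (((((tr - tx) / 2 : ℝ)) : ℂ) * Complex.I) = half tr / half tx := by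
    rw [half, half, ← Complex.exp_sub]; push_cast; ring_nf
  have q4 : Complex.exp (((((-(tr - tx)) / 2 : ℝ)) : ℂ) * Complex.I) = half tx / half tr := by
    rw [half, half, ← Complex.exp_sub]; push_cast; ring_nf
  have q5 : Complex.exp ((((2 : ℕ) : ℂ) * (tx : ℂ)) * Complex.I) = half tx ^ 4 := by
    rw [half, ← Complex.exp_nat_mul]; push_cast; ring_nf
  have q6 : Complex.exp ((((-((2 : ℕ) : ℤ)) : ℤ) : ℂ) * (tx : ℂ) * Complex.I) = (half tx ^ 4)⁻¹ := by
    rw [← q5, ← Complex.exp_neg]; push_cast; ring_nf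
  rw [Finset.Icc_self, Finset.sum_singleton, q1, q2, q3, q4, q5, q6] at this
  refine balanced_of_eq (half_ne_zero _) (half_ne_zero _) (half_ne_zero _) (half_ne h1 h2) ?_
  rw [← this]
  simp [bracket]

/-- A table of degree two with graph integrable boundary collar of any width is a disc. -/
theorem degree_two {h : ℕ → ℂ} (heta : 0 < eta) (hT : IsTable (rhoOf 2 h))
    (hI : GraphIntegrable (rhoOf 2 h) eta) : h 2 = 0 := by
  by_contra hne
  set m : ℕ := 2 * (⌈Real.pi / eta⌉₊ + 1) with hm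
  have hk : Real.pi / (m + 1 : ℕ) < eta := by
    have h1 : Real.pi / eta < (m + 1 : ℕ) := by
      refine (Nat.le_ceil _).trans_lt ?_
      exact_mod_cast (by omega : ⌈Real.pi / eta⌉₊ < m + 1)
    rw [div_lt_iff₀ heta] at h1
    rw [div_lt_iff₀ (by positivity)]
    linarith
  obtain ⟨th, h0, hper, hmono, heq⟩ := exists_orbits hT hI hk
  have hU : ((Ultrafilter.of atTop : Ultrafilter ℕ) : Filter ℕ) ≤ atTop := Ultrafilter.of_le _
  generalize Ultrafilter.of (atTop : Filter ℕ) = U at hU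
  let R : (ℕ → ℂ) →+* Germ (U : Filter ℕ) ℂ := Germ.coeRingHom _
  let ι : ℂ →+* Germ (U : Filter ℕ) ℂ := R.comp (Pi.constRingHom ℕ ℂ)
  have hR : ∀ f g : ℕ → ℂ, R f = R g ↔ ∀ᶠ n in (U : Filter ℕ), f n = g n := fun f g => Germ.coe_eq
  let w : ℕ → Germ (U : Filter ℕ) ℂ := fun i => R fun n => half (th n i)
  refine no_cycle ι hne ((map_ne_zero (starRingEnd ℂ)).2 hne) (w := w) (q := m + 1) ⟨⌈Real.pi / eta⌉₊ + 1, by omega⟩
    (fun i h => ?_) (fun i => ?_) (fun i => ?_) (fun i h => ?_) (fun k h => ?_)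
  · rw [← map_zero R] at h
    obtain ⟨n, hn⟩ := ((hR _ _).1 h).exists
    exact half_ne_zero _ hn
  · show R _ = -R _
    rw [← map_neg]
    refine (hR _ _).2 (Eventually.of_forall fun n => ?_)
    rw [Pi.neg_apply, hper n i, half, half, show (((th n i + 2 * Real.pi) / 2 : ℝ) : ℂ) * Complex.I =
      ((th n i / 2 : ℝ) : ℂ) * Complex.I + (Real.pi : ℂ) * Complex.I by push_cast; ring,
      Complex.exp_add, Complex.exp_pi_mul_I, mul_neg_one]
  · have hb : ∀ n, Balanced (h 2) (starRingEnd ℂ (h 2)) (half (th n (i + 1))) (half (th n i))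
        (half (th n (i + 2))) := fun n => by
      refine balanced_half hT (hmono n (by omega)) ?_ (heq n i)
      rw [← hper n i]
      exact hmono n (by omega)
    have := congrArg R (funext hb : (fun n => _) = fun _ => (0 : ℂ))
    exact this.trans (map_zero R)
  · obtain ⟨n, hn⟩ := ((hR _ _).1 h).exists
    refine half_ne (hmono n (by omega)) ?_ hn
    rw [← hper n i]
    exact hmono n (by omega)
  · have hf : ∃ᶠ n in atTop, k = half (th n 0) := (((hR _ _).1 h).frequently).filter_mono hU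
    obtain ⟨n1, -, e1⟩ := frequently_atTop.1 hf 0
    obtain ⟨n2, hn2, e2⟩ := frequently_atTop.1 hf (n1 + 1)
    have hlt : th n2 0 < th n1 0 := by
      rw [h0, h0]
      refine div_lt_div_of_pos_left one_pos (by positivity) ?_
      have : ((n1 : ℝ) + 1) ≤ n2 := by exact_mod_cast hn2
      linarith
    refine half_ne hlt ?_ (e1.symm.trans e2)
    have b1 : 0 < th n2 0 := by rw [h0]; positivity
    have b2 : th n1 0 ≤ 1 := by
      rw [h0, div_le_one (by positivity)]; linarith [Nat.cast_nonneg (α := ℝ) n1]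
    linarith [Real.two_le_pi]

/-- The result in real coefficients. -/
theorem degree_two_real {r0 a b : ℝ} (heta : 0 < eta) (hT : IsTable rho) (hr : 0 < r0)
    (hrho : ∀ x, rho x = r0 * (1 + a * Real.cos (2 * x) + b * Real.sin (2 * x)))
    (hI : GraphIntegrable rho eta) : ∀ x y, rho x = rho y := by
  set h : ℕ → ℂ := fun _ => ((a : ℂ) - (b : ℂ) * Complex.I) / ((-6 : ℝ) : ℂ) with hh
  have hre : rhoOf 2 h = fun u => rho u / r0 := by
    funext u
    rw [hrho u, mul_div_cancel_left₀ _ hr.ne', rhoOf, Finset.Icc_self, Finset.sum_singleton,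
      show (2 * (1 - ((2 : ℕ) : ℝ) ^ 2)) = (-6 : ℝ) by norm_num, ← Complex.re_ofReal_mul, ← mul_assoc]
    simp only [hh]
    rw [mul_div_cancel₀ _ (Complex.ofReal_ne_zero.2 (by norm_num)),
      show (((2 : ℕ) : ℂ) * (u : ℂ)) * Complex.I = ((2 * u : ℝ) : ℂ) * Complex.I by push_cast; ring]
    simp [Complex.mul_re, Complex.exp_re, Complex.exp_im]
    ring
  have hz := degree_two heta (hre ▸ isTable_div hr hT) (hre ▸ graphIntegrable_div hr hI)
  intro x y
  have : ∀ u, rhoOf 2 h u = 1 := fun u => by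
    rw [rhoOf, Finset.Icc_self, Finset.sum_singleton, hz]; simp
  have e1 := this x
  have e2 := this y
  rw [hre] at e1 e2
  field_simp at e1 e2
  linarith

end Vale.Agent.P097.Two
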